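import Vale.Agent.P057EN.Sem
import Vale.Agent.P057TE.Thb
import Vale.Agent.P057KR.Kmf

/-! A good centre of bounded length in a Gaussian mixture; masses of triangular systems. -/

set_option linter.all false

open MeasureTheory Matrix Finset Filter
open scoped Real
open Vale.Agent.P267.H775 Vale.Agent.P057G Vale.Agent.P057PC

namespace Vale.Agent.P057NA

noncomputable section

theorem pick {X β : Type} [MeasurableSpace X] [Countable β] {μ : Measure X} {ν ν' : X → ℝ}
    {A A' : β → X → ℝ} {g g' h : β → ℝ} {C K τ : ℝ} {Q : X → Prop} (ν0 : ∀ x, 0 ≤ ν x)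
    (ν0' : ∀ x, 0 ≤ ν' x) (A0 : ∀ z x, 0 ≤ A z x) (A0' : ∀ z x, 0 ≤ A' z x)
    (hi : Integrable ν μ) (h1 : ∫ x, ν x ∂μ = 1)
    (hA : ∀ z, Integrable (fun x => ν x * A z x) μ ∧ ∫ x, ν x * A z x ∂μ = g z)
    (hA' : ∀ z, Integrable (fun x => ν' x * A' z x) μ ∧ ∫ x, ν' x * A' z x ∂μ = g' z)
    (sg : Summable g) (sg' : Summable g') (sA : ∀ x, Summable fun z => A z x)
    (sA' : ∀ x, Summable fun z => A' z x) (hC : ∀ z, |h z| ≤ C) (hK : 0 ≤ K) (τ0 : 0 ≤ τ)
    (hQ : ∀ x, ¬ Q x → ∀ z, ν x * A z x * h z ≤ K * (ν' x * A' z x))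
    (hτ : τ + K * ∑' z, g' z < ∑' z, g z * h z) : ∃ x, Q x ∧ τ ≤ ∑' z, A z x * h z := by
  by_contra hn
  push Not at hn
  have g0 : ∀ z, 0 ≤ g z := fun z => (hA z).2 ▸ integral_nonneg fun x => mul_nonneg (ν0 x) (A0 z x)
  have C0 : ∀ z : β, 0 ≤ C := fun z => (abs_nonneg _).trans (hC z)
  have fi : ∀ z, Integrable (fun x => K * (ν' x * A' z x) - ν x * A z x * h z) μ := fun z =>
    ((hA' z).1.const_mul K).sub ((hA z).1.mul_const _)
  have k1 := hasSum_integral_of_summable_integral_norm fi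
    (((sg'.mul_left K).add (sg.mul_right C)).of_nonneg_of_le
      (fun z => integral_nonneg fun x => norm_nonneg _) fun z => by
        rw [← (hA z).2, ← (hA' z).2, ← integral_const_mul, ← integral_mul_const,
          ← integral_add ((hA' z).1.const_mul K) ((hA z).1.mul_const _)]
        refine integral_mono (fi z).norm (((hA' z).1.const_mul K).add ((hA z).1.mul_const _))
          fun x => (norm_sub_le _ _).trans (add_le_add (le_of_eq ?_) ?_)
        · exact abs_of_nonneg (mul_nonneg hK (mul_nonneg (ν0' x) (A0' z x)))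
        · rw [Real.norm_eq_abs, abs_mul, abs_of_nonneg (mul_nonneg (ν0 x) (A0 z x))]
          exact mul_le_mul_of_nonneg_left (hC z) (mul_nonneg (ν0 x) (A0 z x)))
  have k2 : ∀ z, ∫ x, (K * (ν' x * A' z x) - ν x * A z x * h z) ∂μ = K * g' z - g z * h z :=
    fun z => by
      rw [integral_sub ((hA' z).1.const_mul K) ((hA z).1.mul_const _), integral_const_mul,
        integral_mul_const, (hA z).2, (hA' z).2]
  simp only [k2] at k1
  have k3 := k1.unique ((sg'.hasSum.mul_left K).sub (summable_mul_real sg g0 hC).hasSum)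
  have k4 : ∀ x, -τ * ν x ≤ ∑' z, (K * (ν' x * A' z x) - ν x * A z x * h z) := fun x => by
    by_cases hx : Q x
    · have s1 := (summable_mul_real (sA x) (fun z => A0 z x) hC).hasSum
      rw [(HasSum.congr_fun ((((sA' x).hasSum.mul_left (ν' x)).mul_left K).sub
        (s1.mul_left (ν x))) fun z => by ring).tsum_eq]
      linarith [mul_le_mul_of_nonneg_left (hn x hx).le (ν0 x), mul_nonneg hK (mul_nonneg (ν0' x)
        ((sA' x).hasSum.nonneg fun z => A0' z x))]
    · exact le_trans (by linarith [mul_nonneg τ0 (ν0 x)])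
        (tsum_nonneg fun z => sub_nonneg.2 (hQ x hx z))
  by_cases k5 : Integrable (fun x => ∑' z, (K * (ν' x * A' z x) - ν x * A z x * h z)) μ
  · have := integral_mono (hi.const_mul (-τ)) k5 k4
    rw [integral_const_mul, h1] at this
    linarith
  · rw [integral_undef k5] at k3
    linarith

variable {L : Type} [Fintype L] [DecidableEq L]

/-- the Gram matrix of the law of the centres -/
theorem exists_B {G H : Matrix L L ℝ} (hG : G.PosDef) (hR : (H - G).PosDef) :
    ∃ B : Matrix L L ℝ, B.PosDef ∧ (∀ x, qq G x ≤ qq B x) ∧ ∀ a : ℝ, 0 < a → ∀ v,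
      Integrable (fun c => ng (a • B) c * ng (a • H) (v - c)) ∧
        ∫ c, ng (a • B) c * ng (a • H) (v - c) = ng (a • G) v := by
  set R := H - G with hRdef
  have hHR : H = R + G := by rw [hRdef]; abel
  have hH : H.PosDef := hHR ▸ hR.add hG
  have uR : IsUnit R.det := (isUnit_iff_isUnit_det _).1 hR.isUnit
  have uH : IsUnit H.det := (isUnit_iff_isUnit_det _).1 hH.isUnit
  have tG : Gᵀ = G := by simpa using hG.1.eq
  have tH : Hᵀ = H := by simpa using hH.1.eq
  set B := G + Gᵀ * R⁻¹ * G with hB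
  have hBp : B.PosDef := posDef_addform hG hR.inv.posSemidef G
  have hB1 : B = H * R⁻¹ * G := by
    rw [hB, tG, hHR, add_mul, add_mul, mul_nonsing_inv _ uR, one_mul]
  set T := H + B with hT
  have hTp : T.PosDef := hH.add hBp
  have hT1 : T = H * R⁻¹ * H := by
    rw [hT, hB1]
    conv_rhs => rw [hHR, mul_add, ← hHR, mul_assoc, nonsing_inv_mul _ uR, mul_one]
  have hTi : T⁻¹ = H⁻¹ * R * H⁻¹ := by
    refine inv_eq_left_inv ?_
    rw [hT1]
    calc H⁻¹ * R * H⁻¹ * (H * R⁻¹ * H) = H⁻¹ * (R * ((H⁻¹ * H) * R⁻¹)) * H := by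
          simp only [mul_assoc]
      _ = 1 := by
          rw [nonsing_inv_mul _ uH, one_mul, mul_nonsing_inv _ uR, mul_one, nonsing_inv_mul _ uH]
  have key : ∀ v c, qq B c + qq H (v - c) = qq T (T⁻¹ *ᵥ (H *ᵥ v) - c) + qq G v := by
    intro v c
    have h1 := sq_lin hTp c (H *ᵥ v)
    have h2 : qq T⁻¹ (H *ᵥ v) = qq R v := by
      rw [← qq_conj, tH, hTi]
      congr 1
      calc H * (H⁻¹ * R * H⁻¹) * H = (H * H⁻¹) * R * (H⁻¹ * H) := by simp only [mul_assoc]
        _ = R := by rw [mul_nonsing_inv _ uH, nonsing_inv_mul _ uH, one_mul, mul_one]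
    have h3 : qq H v = qq R v + qq G v := by rw [← qq_add_mat, ← hHR]
    have h4 : qq T c = qq H c + qq B c := by rw [← qq_add_mat]
    have h5 : qq T (T⁻¹ *ᵥ (H *ᵥ v) - c) = qq T (c - T⁻¹ *ᵥ (H *ᵥ v)) := by
      rw [← qq_neg, neg_sub]
    have h6 : bb H v c = c ⬝ᵥ (H *ᵥ v) := by rw [bb_comm hH.1]; rfl
    rw [qq_sub hH.1, h5, h6]
    linarith
  have hdet : vol B * vol H = vol G * vol T := by
    unfold vol
    rw [← mul_inv, ← mul_inv, ← Real.sqrt_mul hBp.det_pos.le, ← Real.sqrt_mul hG.det_pos.le, hB1,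
      hT1]
    simp only [det_mul]
    congr 2; ring
  refine ⟨B, hBp, fun x => ?_, fun a ha v => ?_⟩
  · rw [hB, qq_add_mat, qq_conj]
    exact le_add_of_nonneg_right (qq_nonneg hR.inv.posSemidef _)
  have vG := vol_pos (hG.smul ha)
  have vT := vol_pos (hTp.smul ha)
  have h1 : (fun c => ng (a • B) c * ng (a • H) (v - c)) =
      fun c => (ng (a • G) v / vol (a • T)) * gs (a • T) (T⁻¹ *ᵥ (H *ᵥ v) - c) := by
    funext c
    have e1 : vol (a • B) * vol (a • H) = vol (a • G) * vol (a • T) := by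
      simp only [vol_smul ha]
      rw [mul_mul_mul_comm, hdet, mul_mul_mul_comm]
    have e2 : qq (a • B) c + qq (a • H) (v - c) =
        qq (a • T) (T⁻¹ *ᵥ (H *ᵥ v) - c) + qq (a • G) v := by
      simp only [qq_smul_mat]
      rw [← mul_add, key, mul_add]
    unfold ng
    rw [div_mul_div_comm, gs_mul_of_qq e2, e1]
    unfold gs
    field_simp
  rw [h1]
  refine ⟨(integrable_gs_sub (hTp.smul ha) _).const_mul _, ?_⟩
  rw [integral_const_mul, integral_gs_sub (hTp.smul ha), div_mul_cancel₀ _ vT.ne']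

theorem ng_half {G : Matrix L L ℝ} (hG : G.PosDef) {R : ℝ} (h0 : 0 ≤ R) {v : L → ℝ}
    (h : R ≤ qq G v) : ng G v ≤ Real.exp (Fintype.card L - R) * ng ((1 / 2 : ℝ) • G) v := by
  have p := vol_pos (hG.smul (show (0 : ℝ) < 1 / 2 by norm_num))
  rw [ng, ng, ← mul_div_assoc, div_le_div_iff₀ (vol_pos hG) p]
  refine (mul_le_mul (P057KR.gs_far h0 h) (P057KR.vol_half hG) p.le
    (mul_pos (Real.exp_pos _) (gs_pos _ _)).le).trans_eq ?_
  rw [sub_eq_add_neg, Real.exp_add]
  ring

/-- a good centre, supported on `P` and of bounded length -/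
theorem mix_tail {lv : L → ℕ} {p : (L → ℤ) → L → ℝ} (hp : Tri lv p) {G H : Matrix L L ℝ}
    {P : L → Prop} [DecidablePred P] (hG : G.PosDef) (hH : H.PosDef) (oG : Ort G P) (oH : Ort H P)
    (hb : (bk H fun l => ¬ P l) = bk G fun l => ¬ P l) (hR : (bk H P - bk G P).PosDef)
    {h : (L → ℤ) → ℝ} {C B R τ : ℝ} (hC : ∀ z, |h z| ≤ C) (hB : ∀ z, h z ≤ B) (B0 : 0 ≤ B)
    (R0 : 0 ≤ R) (τ0 : 0 ≤ τ) (hτ : τ + B * Real.exp (2 * Fintype.card L - R) *
      ms ((1 / 2 : ℝ) • G) p < ∑' z, ng G (toR z - p z) * h z) :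
    ∃ x : L → ℝ, (∀ l, ¬ P l → x l = 0) ∧ qq G x ≤ R ∧
      τ ≤ ∑' z, ng H (toR z - (p z + x)) * h z := by
  obtain ⟨D, hD, hGD, hv⟩ := exists_B (posDef_bk hG P) hR
  have e : ∀ a : ℝ, 0 < a → ∀ v : L → ℝ,
      Integrable (fun c => ng (a • D) c * ng (a • H) (v - P057TE.ez P c)) ∧
        ∫ c, ng (a • D) c * ng (a • H) (v - P057TE.ez P c) = ng (a • G) v := fun a ha v => by
    have o : ∀ {G : Matrix L L ℝ}, Ort G P → Ort (a • G) P := fun h i j hi hj => by
      rw [Matrix.smul_apply, h i j hi hj, smul_zero]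
    have e1 : ∀ c, ng (a • H) (v - P057TE.ez P c) =
        ng (a • bk G fun l => ¬ P l) (rs _ v) * ng (a • bk H P) (rs P v - c) := fun c => by
      rw [ng_split (hH.smul ha) (o oH), ← hb]
      congr 2
      · funext l; simp only [rs, Pi.sub_apply, P057TE.ez, dif_neg l.2, sub_zero]
      · funext l; simp only [rs, Pi.sub_apply, P057TE.ez, dif_pos l.2]
    simp only [e1, mul_left_comm (ng (a • D) _)]
    refine ⟨(hv a ha _).1.const_mul _, ?_⟩
    rw [integral_const_mul, (hv a ha _).2, ng_split (hG.smul ha) (o oG)]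
    rfl
  have e1 := e 1 one_pos
  simp only [one_smul] at e1
  have h2 : (0 : ℝ) < 1 / 2 := by norm_num
  obtain ⟨x, k1, k2⟩ := pick (Q := fun c => qq (bk G P) c ≤ R)
    (A := fun z c => ng H (toR z - p z - P057TE.ez P c))
    (A' := fun z c => ng ((1 / 2 : ℝ) • H) (toR z - p z - P057TE.ez P c))
    (fun _ => ng_nonneg D _) (fun _ => ng_nonneg ((1 / 2 : ℝ) • D) _) (fun _ _ => ng_nonneg _ _)
    (fun _ _ => ng_nonneg _ _) ((integrable_gs hD).div_const _)
    (by unfold ng; rw [integral_div, integral_gs_real hD, div_self (vol_pos hD).ne'])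
    (fun z => e1 _) (fun z => e _ h2 _) (summable_ng hp hG) (summable_ng hp (hG.smul h2))
    (fun c => by simpa only [sub_sub] using summable_ng (tri_add hp _) hH)
    (fun c => by simpa only [sub_sub] using summable_ng (tri_add hp _) (hH.smul h2)) hC
    (by positivity) τ0 (fun c hc z => by
      have j1 := ng_half hD R0 ((not_le.1 hc).le.trans (hGD c))
      have j2 := ng_half hH le_rfl (qq_nonneg hH.posSemidef (toR z - p z - P057TE.ez P c))
      have j3 : Real.exp (Fintype.card {l // P l} - R) * Real.exp (Fintype.card L - 0) ≤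
          Real.exp (2 * Fintype.card L - R) := by
        rw [← Real.exp_add]
        have : (Fintype.card {l // P l} : ℝ) ≤ Fintype.card L :=
          Nat.cast_le.2 (Fintype.card_subtype_le P)
        exact Real.exp_le_exp.2 (by linarith)
      have j4 := mul_nonneg (ng_nonneg ((1 / 2 : ℝ) • D) c)
        (ng_nonneg ((1 / 2 : ℝ) • H) (toR z - p z - P057TE.ez P c))
      refine (mul_le_mul_of_nonneg_left (hB z) (mul_nonneg (ng_nonneg _ _) (ng_nonneg _ _))).trans
        ((mul_le_mul_of_nonneg_right (mul_le_mul j1 j2 (ng_nonneg _ _) ((ng_nonneg _ _).trans j1))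
          B0).trans ?_)
      linarith [mul_le_mul_of_nonneg_right j3 (mul_nonneg B0 j4)]) hτ
  exact ⟨P057TE.ez P x, fun l hl => dif_neg hl, (P057TE.qq_ez G x).trans_le k1,
    by simpa only [sub_sub] using k2⟩

/-- a triangular system has at most the mass of the centred one -/
theorem ms_tri_le (D : ℕ) : ∀ (L : Type) [Fintype L] [DecidableEq L] (lv : L → ℕ)
    (p : (L → ℤ) → L → ℝ) (G : Matrix L L ℝ), Tri lv p → G.PosDef →
    (∀ l l', lv l ≠ lv l' → G l l' = 0) → (∀ l, lv l < D) → ms G p ≤ ms G fun _ => 0 := by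
  induction D with
  | zero =>
    intro L _ _ lv p G _ _ _ h
    have : IsEmpty L := ⟨fun l => Nat.not_lt_zero _ (h l)⟩
    rw [ms_empty, ms_empty]
  | succ D ih =>
    intro L _ _ lv p G hp hG hb h
    have ho : Ort G fun l => lv l = D := fun i j hi hj => hb i j (hi ▸ Ne.symm hj)
    have hs : Spl (fun l => lv l = D) p fun y l =>
        p (glue (X := fun _ => ℤ) (fun l => lv l = D) 0 y) l := fun z l =>
      hp l _ _ fun j hj => by
        have := h l
        exact (glue_neg (X := fun _ => ℤ) (p := fun l => lv l = D) 0 (rs _ z)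
          (show ¬ lv j = D by omega)).symm
    have hP := posDef_bk hG fun l => lv l = D
    have hN := posDef_bk hG fun l => ¬ lv l = D
    have k : ∀ y, ms (bk G fun l => lv l = D) (pf (fun l => lv l = D) p y) ≤
        ms (bk G fun l => lv l = D) fun _ => 0 := fun y => by
      have e : pf (fun l => lv l = D) p y = fun _ => pf (fun l => lv l = D) p y 0 :=
        funext fun x => funext fun l => tri_pf hp _ y l _ _ fun j hj =>
          absurd (j.2.trans l.2.symm) hj.ne
      rw [e]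
      unfold ms ng
      rw [tsum_div_const, tsum_div_const]
      exact div_le_div_of_nonneg_right (th_le_th_zero hP _) (vol_pos hP).le
    have s := summable_ng (hs.tri hp) hN
    rw [P057EN.ms_split hp hG ho hs, ms_zero_split hG ho]
    refine le_trans ((summable_mul_real s (fun _ => ng_nonneg _ _) fun y =>
      (abs_of_nonneg (ms_nonneg _ _)).trans_le (k y)).tsum_le_tsum (fun y =>
        mul_le_mul_of_nonneg_left (k y) (ng_nonneg _ _)) (s.mul_right _)) ?_
    rw [tsum_mul_right, mul_comm]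
    exact mul_le_mul_of_nonneg_left (ih _ _ _ _ (hs.tri hp) hN (fun l l' => hb l l') fun l => by
      have := h l
      have := l.2
      omega) (ms_nonneg _ _)

end

end Vale.Agent.P057NA
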