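import Vale.Agent.P057TP.Alg3
import Vale.Agent.P057GH.Pb
import Vale.Agent.P057NA.Mix

/-! Narrowing in place. -/

set_option linter.all false

open Matrix Finset
open Vale.Agent.P267.H775 Vale.Agent.P057G Vale.Agent.P057PC Vale.Agent.P057TP

namespace Vale.Agent.P057NA

noncomputable section

section sc

variable {L : Type} [Fintype L] [DecidableEq L] {lv : L → ℕ} {G : Matrix L L ℝ} {μ : ℕ → ℝ}

/-- the block of level `e` multiplied by `μ e` -/
def sc (lv : L → ℕ) (μ : ℕ → ℝ) (G : Matrix L L ℝ) : Matrix L L ℝ :=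
  of fun a b => μ (lv a) * G a b

theorem sc_eq (hb : ∀ a b, lv a ≠ lv b → G a b = 0) (h : ∀ a, 0 ≤ μ (lv a)) :
    sc lv μ G = (diagonal fun a => √(μ (lv a)))ᵀ * G * diagonal fun a => √(μ (lv a)) := by
  ext a b
  rw [diagonal_transpose, mul_diagonal, diagonal_mul, sc, of_apply]
  by_cases e : lv a = lv b
  · rw [← e, mul_right_comm, Real.mul_self_sqrt (h a)]
  · simp [hb a b e]

theorem pd_sc (hG : G.PosDef) (hb : ∀ a b, lv a ≠ lv b → G a b = 0) (h : ∀ a, 0 < μ (lv a)) :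
    (sc lv μ G).PosDef := by
  rw [sc_eq hb fun a => (h a).le]
  refine hG.conjTranspose_mul_mul_same (B := diagonal fun a => √(μ (lv a))) fun x y e =>
    funext fun a => ?_
  have := congrFun e a
  rw [mulVec_diagonal, mulVec_diagonal] at this
  exact mul_left_cancel₀ (Real.sqrt_pos.2 (h a)).ne' this

theorem sc_sub (lv : L → ℕ) (μ : ℕ → ℝ) (G : Matrix L L ℝ) :
    sc lv μ G - G = sc lv (fun e => μ e - 1) G := by
  ext a b; simp [sc, sub_mul]

theorem le_sc (hG : G.PosDef) (hb : ∀ a b, lv a ≠ lv b → G a b = 0) (h : ∀ a, 1 ≤ μ (lv a))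
    (x : L → ℝ) : qq G x ≤ qq (sc lv μ G) x := by
  rw [← sub_add_cancel (sc lv μ G) G, qq_add_mat, sc_sub, sc_eq hb fun a => sub_nonneg.2 (h a),
    qq_conj]
  exact le_add_of_nonneg_left (qq_nonneg hG.posSemidef _)

end sc

variable {C W S : Type} [Fintype W] [DecidableEq W] [Fintype S] {T : Tow} {s : ℕ} {N : ℝ}
  {cl : W → C} {m : ℕ} {lam : ℕ → ℝ}

theorem ok_nar (hT : T.Ok s N) (h : ∀ e, 1 ≤ lam e) : (T.nar lam).Ok s N :=
  have k := le_sc (μ := lam) hT.pd hT.blk fun _ => h _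
  ⟨hT.pos, hT.le, hT.hom, hT.low, pd_sc hT.pd hT.blk fun _ => one_pos.trans_le (h _),
    fun a b e => mul_eq_zero_of_right _ (hT.blk a b e), hT.el1,
    fun z h1 h2 => (hT.sep z h1 h2).trans (k _),
    fun x => (hT.elN x).trans (mul_le_mul_of_nonneg_left (k x) (sq_nonneg N))⟩

theorem Gam_nar (T : Tow) (lam : ℕ → ℝ) :
    Gam (T.nar lam) cl S m = sc (fun l : Lb T cl S m => T.lv l.cd) lam (Gam T cl S m) := by
  ext l l'
  exact (@mul_ite_zero _ _ _ (_) _ _).symm

theorem Gam_zero {l l' : Lb T cl S m} (h : l.fc = l'.fc → l.bs = l'.bs → T.G l.cd l'.cd = 0) :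
    Gam T cl S m l l' = 0 := (@ite_eq_right_iff _ _ (_) _ _).2 fun k => h k.1 k.2

theorem Gam_blk (hb : ∀ a b, T.lv a ≠ T.lv b → T.G a b = 0) (l l' : Lb T cl S m)
    (h : T.lv l.cd ≠ T.lv l'.cd) : Gam T cl S m l l' = 0 := Gam_zero fun _ _ => hb _ _ h

/-- the system with the centres moved by `x` -/
def sh (Z : Sys T W S) (x : Lb T cl S m → ℝ) : Sys T W S :=
  ⟨⟨fun o a => Z.fam.fn o a + MvPolynomial.C (lift x o a)⟩, Z.off⟩

theorem ok_sh (hp : ∀ a, 0 < T.lv a) {Z : Sys T W S} (h : Z.Ok) (x : Lb T cl S m → ℝ) :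
    (sh Z x).Ok := by
  refine ⟨⟨fun o a => JH.add (h.fam.hom o a) (JH.C (lift_hom x o a)), fun t a => ?_⟩, fun a => ?_⟩
  · simp only [sh, map_add, MvPolynomial.map_C, h.fam.pure, kt_lift x (some t)]
  · simp only [sh, Fam.top, map_add, MvPolynomial.map_C, constantCoeff_lift hp, map_zero, add_zero]
    exact h.top a

theorem pr_sh (Z : Sys T W S) (x z : Lb T cl S m → ℝ) (l : Lb T cl S m) :
    (sh Z x).pr cl m z l = Z.pr cl m z l + x l := alt_add_lift x z l rfl

theorem pt_high {R : Type} [AddCommMonoid R] (x : Lb T cl S m → R) (o : Option S) (A : Finset W)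
    {a : T.ι} (h : m ≤ T.lv a) : pt x o A a = 0 :=
  sum_eq_zero fun l _ => if_neg fun k : l.cd = a ∧ _ => h.not_gt (k.1 ▸ l.2.1)

theorem F_sh (Z : Sys T W S) (x : Lb T cl S m → ℝ) (f : ℤ → ℝ) (z : Lb T cl S m → ℤ)
    (A : Finset W) (t : S) : (sh Z x).F cl m f z A t = Z.F cl m f z A t :=
  P057GH.F_ext (Z := sh Z x) (Z' := Z) (fun a h => by
    simp only [sh, Fam.at', map_add, MvPolynomial.map_C, evA_lift, pt_high x _ _ h, map_zero,
      add_zero]) rfl f z

theorem F_nar (Z : Sys T W S) (h : ∀ e, m ≤ e → lam e = 1) (x : Lb T cl S m → ℝ) (f : ℤ → ℝ)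
    (z : Lb T cl S m → ℤ) (A : Finset W) (t : S) :
    (Z.nar lam x).F cl m f z A t = Z.F cl m f z A t := by
  have h1 : (bk (T.nar lam).G fun a => m ≤ T.lv a) = bk T.G fun a => m ≤ T.lv a := by
    ext a b
    exact (congrArg (· * T.G a.1 b.1) (h _ a.2)).trans (one_mul _)
  exact Eq.trans (tsum_congr fun y => congrArg₂ (· * ·) (congrArg₂ ng h1 rfl) rfl)
    (F_sh Z x f z A t)

theorem card_Lb (hT : T.Ok s N) {X : ℝ} (hd : ∀ e, T.dm e ≤ X)
    (hn : (Fintype.card W + Fintype.card S : ℝ) ≤ X) :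
    (Fintype.card (Lb T cl S m) : ℝ) ≤ (s + 1) * X * (X + 1) ^ (s + 1) := by
  have h1 := Fintype.card_le_of_injective (fun l : Lb T cl S m =>
    (l.cd, (fun i : Fin s => l.fc.toList[i]?), l.bs)) fun l l' e => by
      obtain ⟨e1, e2, e3⟩ : _ ∧ _ ∧ _ := by simpa only [Prod.mk.injEq] using e
      refine Lb.ext' e1 (val_injective ?_) e3
      rw [← coe_toList, ← coe_toList]
      refine congrArg _ (List.ext_getElem? fun i => ?_)
      by_cases k : i < s
      · exact congrFun e2 ⟨i, k⟩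
      · have := l.card_le.trans (hT.le _)
        have := l'.card_le.trans (hT.le _)
        rw [List.getElem?_eq_none (by rw [length_toList]; omega),
          List.getElem?_eq_none (by rw [length_toList]; omega)]
  have h2 : (Fintype.card T.ι : ℝ) ≤ (s + 1) * X := by
    rw [← card_univ, card_eq_sum_card_fiberwise (f := T.lv) (t := range (s + 1))
      fun a _ => mem_coe.2 (mem_range.2 (Nat.lt_succ_of_le (hT.le a))), Nat.cast_sum]
    exact (sum_le_card_nsmul _ _ X fun e _ => hd e).trans_eq (by simp)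
  simp only [Fintype.card_prod, Fintype.card_fun, Fintype.card_option, Fintype.card_fin] at h1
  refine (Nat.cast_le.2 h1).trans ?_
  have h3 := Nat.cast_nonneg (α := ℝ) (Fintype.card W)
  have h4 := Nat.cast_nonneg (α := ℝ) (Fintype.card S)
  push_cast
  rw [pow_succ]
  have : 0 ≤ X := by linarith
  gcongr <;> linarith

theorem ms_Gam (hT : T.Ok s N) (hN : 1 ≤ N) {Y : ℝ} (Y0 : 0 ≤ Y)
    (hY : ∀ e, T.yy N e + 4 * (T.dm e + 1) ^ 2 ≤ Y) :
    ms (Gam T cl S m) (fun _ => 0) ≤ Real.exp (Fintype.card (Lb T cl S m) * Y) := by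
  classical
  have h1 := ms_zero_le (univ.image fun l : Lb T cl S m => (l.fc, l.bs, T.lv l.cd))
    (B := Real.exp Y) _ (fun l => (l.fc, l.bs, T.lv l.cd)) _ (P057GH.pd_Gam hT.pd cl S m)
    (fun l l' e => Gam_zero fun k1 k2 => hT.blk _ _ fun k3 => e (by rw [k1, k2, k3]))
    (fun l => mem_image_of_mem _ (mem_univ l)) fun u hu => by
      obtain ⟨l, -, rfl⟩ := mem_image.1 hu
      refine le_trans (le_of_eq ?_) ((P057TE.ms_blk hT hN (T.lv l.cd)).trans
        (Real.exp_le_exp.2 (hY _)))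
      have k : ∀ i : {i : Lb T cl S m // (i.fc, i.bs, T.lv i.cd) = (l.fc, l.bs, T.lv l.cd)},
          i.1.fc = l.fc ∧ i.1.bs = l.bs ∧ T.lv i.1.cd = T.lv l.cd := fun i => by simpa using i.2
      let e : {i : Lb T cl S m // (i.fc, i.bs, T.lv i.cd) = (l.fc, l.bs, T.lv l.cd)} ≃
          {a // T.lv a = T.lv l.cd} := ⟨fun i => ⟨i.1.cd, (k i).2.2⟩,
        fun a => ⟨⟨(a.1, l.fc, l.bs), by simp only [a.2]; exact l.2⟩, congrArg (_, _, ·) a.2⟩,
        fun i => Subtype.ext (Lb.ext' rfl (k i).1.symm (k i).2.1.symm), fun a => rfl⟩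
      exact ms_equiv e (fun i j => if_pos (And.intro ((k i).1.trans (k j).1.symm)
        ((k i).2.1.trans (k j).2.1.symm))) fun _ _ => rfl
  rw [Real.exp_nat_mul]
  exact h1.trans (pow_le_pow_right₀ (Real.one_le_exp Y0) card_image_le)

/-- the mass of a system with the halved Gram matrix -/
theorem ms_half (hT : T.Ok s N) {p : (Lb T cl S m → ℤ) → Lb T cl S m → ℝ}
    (hp : Tri (fun l => T.lv l.cd) p) :
    ms ((1 / 2 : ℝ) • Gam T cl S m) p ≤ ms (Gam T cl S m) fun _ => 0 := by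
  have hG := P057GH.pd_Gam hT.pd cl S m
  have h2 := hG.smul (show (0 : ℝ) < 1 / 2 by norm_num)
  refine (ms_tri_le m _ _ p _ hp h2 (fun l l' e => ?_) fun l => l.2.1).trans ?_
  · rw [Matrix.smul_apply, Gam_blk hT.blk l l' e, smul_zero]
  · rw [ms_zero h2, ms_zero hG]
    refine th_inv_mono h2 hG (fun x => ?_) 0
    rw [qq_smul_mat]
    linarith [qq_nonneg hG.posSemidef x]

theorem nar (s : ℕ) : NAR s := by
  refine ⟨2 * s + 10, fun N P T C W S _ _ _ cl m Z H B κ σ lam hL hT hC hZ hn hB hκ hσ h1 hm hS => ?_⟩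
  have l0 : ∀ e, P e ≤ P 0 := fun e => antitone_nat_of_succ_le hL.anti e.zero_le
  have hX := hL.big 0
  set X := P 0
  have s0 := Nat.cast_nonneg (α := ℝ) s
  push_cast at hX
  have X0 : 0 < X := by linarith
  have hG := P057GH.pd_Gam hT.pd cl S m
  have hb := Gam_blk (cl := cl) (S := S) (m := m) hT.blk
  have c1 : (Fintype.card (Lb T cl S m) : ℝ) ≤ X ^ (2 * s + 4) :=
    (card_Lb hT (fun e => (hC e).1.trans (l0 e)) (hn.trans (l0 1))).trans <| by
      rw [show 2 * s + 4 = 2 + 2 * (s + 1) by ring, pow_add X, pow_mul, pow_two]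
      gcongr <;> nlinarith
  have c2 := (ms_half hT (P057GH.tri_pr hT hZ)).trans (ms_Gam (cl := cl) (S := S) (m := m) hT hL.one
    (Y := X ^ 3) (by positivity) fun e => by
      have := (hC e).1.trans (l0 e)
      have := (hC e).2.trans (l0 e)
      have : 0 ≤ T.dm e := Nat.cast_nonneg _
      nlinarith [mul_le_mul_of_nonneg_right (show 10 ≤ X by linarith) (sq_nonneg X)])
  have c3 : Real.exp X * Real.exp (2 * Fintype.card (Lb T cl S m) - X ^ (2 * s + 10)) *
      Real.exp (Fintype.card (Lb T cl S m) * X ^ 3) < Real.exp (-X) / 2 := by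
    rw [← Real.exp_add, ← Real.exp_add, lt_div_iff₀ two_pos]
    refine (mul_lt_mul_of_pos_left (show (2 : ℝ) < Real.exp 1 by
      linarith [Real.add_one_lt_exp one_ne_zero]) (Real.exp_pos _)).trans_le ?_
    rw [← Real.exp_add, show 2 * s + 10 = 2 * s + 4 + 6 by ring, pow_add]
    have k1 : X ≤ X ^ (2 * s + 4) := le_self_pow₀ (by linarith) (by omega)
    have k2 : 10 ≤ X ^ 3 := le_trans (by linarith) (le_self_pow₀ (by linarith) (by omega))
    have k3 := mul_le_mul_of_nonneg_right c1 (show 0 ≤ X ^ 3 by linarith)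
    refine Real.exp_le_exp.2 ?_
    rw [show X ^ 6 = X ^ 3 * X ^ 3 by ring]
    nlinarith [mul_le_mul_of_nonneg_left (mul_le_mul_of_nonneg_right k2 (show 0 ≤ X ^ 3 by linarith))
      (show 0 ≤ X ^ (2 * s + 4) by linarith), mul_le_mul_of_nonneg_left k2
      (show 0 ≤ X ^ (2 * s + 4) by linarith)]
  classical
  have ho : Ort (Gam T cl S m) fun l => lam (T.lv l.cd) ≠ 1 := fun i j hi hj =>
    hb i j fun e => hj fun k => hi ((congrArg lam e).trans k)
  obtain ⟨x, k1, k2, k3⟩ := mix_tail (P := fun l => lam (T.lv l.cd) ≠ 1) (P057GH.tri_pr hT hZ) hG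
    (pd_sc (μ := lam) hG hb fun _ => one_pos.trans_le (h1 _))
    ho (fun i j hi hj => mul_eq_zero_of_right _ (ho i j hi hj))
    (by ext a b; exact (congrArg (· * _) (not_not.1 a.2)).trans (one_mul _))
    (by
      have := pd_sc (lv := fun l : {l : Lb T cl S m // lam (T.lv l.cd) ≠ 1} => T.lv l.1.cd)
        (μ := fun e => lam e - 1) (posDef_bk hG _) (fun a b => hb a b)
        fun a => sub_pos.2 (lt_of_le_of_ne (h1 _) (Ne.symm a.2))
      rwa [← sc_sub] at this)
    (h := fun z => H z - κ) (C := B + κ) (B := Real.exp X) (R := X ^ (2 * s + 10)) (τ := σ / 2)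
    (fun z => (abs_sub _ _).trans (add_le_add (hS.1 z) (abs_of_nonneg hκ).le))
    (fun z => by linarith [(le_abs_self _).trans (hS.1 z)]) (Real.exp_pos _).le (by positivity)
    (by linarith [Real.exp_pos (-X)])
    (lt_of_lt_of_le (by linarith [mul_le_mul_of_nonneg_left c2 (mul_pos (Real.exp_pos X)
      (Real.exp_pos (2 * Fintype.card (Lb T cl S m) - X ^ (2 * s + 10)))).le]) hS.2)
  refine ⟨x, fun l e => k1 l (not_not.2 e), k2, ok_nar hT h1, ⟨(ok_sh hT.pos hZ x).fam,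
    (ok_sh hT.pos hZ x).top⟩, pr_sh Z x, F_nar Z hm x, hS.1, k3.trans_eq (tsum_congr fun z => ?_)⟩
  exact congrArg (· * (H z - κ)) (congrArg₂ ng (Gam_nar T lam).symm
    (congrArg (toR z - ·) (funext fun l => (pr_sh Z x _ l).symm)))

end

end Vale.Agent.P057NA
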