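import Vale.Agent.P057TP.Ops2
import Vale.Agent.P057NA.Nar
import Vale.Agent.P057SH.Mass

/-! Masses in terms of the complexity; virtual points. -/

set_option linter.all false

open Matrix Finset MvPolynomial
open scoped Real
open Vale.Agent.P267.H775 Vale.Agent.P057G Vale.Agent.P057PC Vale.Agent.P057TP

namespace Vale.Agent.P057NA

noncomputable section

theorem mtri : MTRI := fun L _ _ lv G p hG hb hp => by
  have h2 := hG.smul (show (0 : ℝ) < 1 / 2 by norm_num)
  have h3 := (P057SH.ms_tri_le h2 (fun l l' e => by simp [hb l l' e]) hp).trans (P057SH.ms_half hG)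
  have h4 : (√(1 / 2 : ℝ))⁻¹ ≤ 2 := by
    rw [one_div, Real.sqrt_inv, inv_inv]
    exact Real.sqrt_le_iff.2 ⟨by norm_num, by norm_num⟩
  refine ⟨P057SH.ms_tri_le hG hb hp, _, mul_le_mul (pow_le_pow_left₀ (by positivity) h4 _) h3
    (ms_nonneg _ _) (by positivity), ((summable_ng hp h2).hasSum.mul_left _).congr_fun fun z => ?_⟩
  have := vol_pos hG
  rw [ng, ng, gs_zero, gs, qq_smul_mat, vol_smul (by norm_num)]
  field_simp

theorem ng_zero_ge {M : Type} [DecidableEq M] (S : Finset M) {b : ℝ} (b0 : 0 ≤ b) :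
    ∀ (L : Type) [Fintype L] [DecidableEq L] (mo : L → M) (G : Matrix L L ℝ), G.PosDef →
      (∀ l l', mo l ≠ mo l' → G l l' = 0) → (∀ l, mo l ∈ S) →
      (∀ m ∈ S, b ≤ ng (bk G fun l => mo l = m) 0) → b ^ S.card ≤ ng G 0 := by
  induction S using Finset.induction_on with
  | empty =>
    intro L _ _ mo G _ _ hS _
    have : IsEmpty L := ⟨fun l => notMem_empty _ (hS l)⟩
    simp [ng, gs_zero, vol]
  | insert m0 S hm0 ih =>
    intro L _ _ mo G hG ho hS hB
    rw [ng_split (P := fun l => mo l = m0) hG fun i j hi hj =>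
      ho i j (by rw [hi]; exact fun h => hj h.symm), card_insert_of_notMem hm0, pow_succ]
    refine mul_le_mul (ih _ (fun l => mo l.1) _ (posDef_bk hG _) (fun l l' h => ho _ _ h)
      (fun l => (mem_insert.1 (hS l)).resolve_left l.2) fun m hm =>
        (hB m (mem_insert_of_mem hm)).trans_eq ?_) (hB m0 (mem_insert_self _ _)) b0 (ng_nonneg _ _)
    exact (ng_submatrix _ (Equiv.subtypeSubtypeEquivSubtype (p := fun l => ¬ mo l = m0)
      (q := fun l => mo l = m) fun {x} hx h => hm0 (by rw [← h, hx]; exact hm)) 0).symm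

variable {C W S : Type} [Fintype W] [DecidableEq W] [Fintype S] {T : Tow} {s : ℕ} {N : ℝ}
  {cl : W → C} {m : ℕ}

theorem ng_Gam (hT : T.Ok0 s) {Y : ℝ} (Y0 : 0 ≤ Y)
    (hY : ∀ e, 1 ≤ e → -Y ≤ Real.log (bk T.G fun a => T.lv a = e).det / 2) :
    Real.exp (-(Fintype.card (Lb T cl S m) * Y)) ≤ ng (Gam T cl S m) 0 := by
  classical
  have h1 := ng_zero_ge (univ.image fun l : Lb T cl S m => (l.fc, l.bs, T.lv l.cd))
    (Real.exp_pos (-Y)).le _ (fun l => (l.fc, l.bs, T.lv l.cd)) _ (P057GH.pd_Gam hT.pd cl S m)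
    (fun l l' e => Gam_zero fun k1 k2 => hT.blk _ _ fun k3 => e (by rw [k1, k2, k3]))
    (fun l => mem_image_of_mem _ (mem_univ l)) fun u hu => by
      obtain ⟨l, -, rfl⟩ := mem_image.1 hu
      let e : {k : Lb T cl S m // (k.fc, k.bs, T.lv k.cd) = (l.fc, l.bs, T.lv l.cd)} ≃
          {a // T.lv a = T.lv l.cd} := ⟨fun k => ⟨k.1.cd, congrArg (·.2.2) k.2⟩,
        fun b => ⟨P057SH.mv l b, Prod.ext rfl (Prod.ext rfl b.2)⟩,
        fun k => Subtype.ext (Lb.ext' rfl (congrArg (·.1) k.2).symm (congrArg (·.2.1) k.2).symm),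
        fun _ => rfl⟩
      have h2 := Real.sqrt_pos.2 (posDef_bk hT.pd fun a => T.lv a = T.lv l.cd).det_pos
      refine le_trans ?_ ((ng_submatrix (bk T.G _) e 0).symm.trans_le (le_of_eq ?_))
      · rw [ng, gs_zero, vol, one_div, inv_inv, ← Real.exp_log h2,
          Real.log_sqrt (posDef_bk hT.pd _).det_pos.le]
        exact Real.exp_le_exp.2 (hY _ (hT.pos _))
      · refine congrArg₂ ng (Matrix.ext fun i j => Eq.symm ?_) rfl
        have := i.2.trans j.2.symm
        exact P057SH.lab_pos T.G (congrArg (·.1) this) (congrArg (·.2.1) this)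
  rw [← mul_neg, Real.exp_nat_mul]
  exact (pow_le_pow_of_le_one (Real.exp_pos _).le (Real.exp_le_one_iff.2 (by linarith))
    card_image_le).trans h1

theorem mass (s : ℕ) : MASS s := by
  refine ⟨2 * s + 10, fun N P T C W S _ _ _ cl m hL hT hC hn => ?_⟩
  have l1 : ∀ e, 1 ≤ e → P e ≤ P 1 := fun e he => antitone_nat_of_succ_le hL.anti he
  have hX := hL.big 1
  have hN := hL.lN
  set X := P 1
  have s0 := Nat.cast_nonneg (α := ℝ) s
  push_cast at hX
  have X1 : 1 ≤ X := by linarith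
  have c0 : ((P057SH.shp W S s).card : ℝ) ≤ X ^ (2 * s + 3) := (P057SH.card_shp hn).trans <| by
    rw [show 2 * s + 3 = 2 * (s + 1) + 1 by ring, pow_succ X, pow_mul]
    gcongr <;> nlinarith
  have c1 : (Fintype.card (Lb T cl S m) : ℝ) ≤ X ^ (2 * s + 4) :=
    (P057SH.card_lb hT fun e he => (hC e).1.trans (l1 e he)).trans <| by
      rw [pow_succ X]; gcongr
  have c2 : ∀ e, 1 ≤ e → X + 4 * (T.dm e + 1) ^ 2 ≤ X ^ 3 := fun e he => by
    have := (hC e).1.trans (l1 e he)
    have : 0 ≤ T.dm e := Nat.cast_nonneg _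
    nlinarith [mul_le_mul_of_nonneg_right (show 10 ≤ X by linarith) (sq_nonneg X)]
  have c3 : X ^ (2 * s + 4) * X ^ 3 + X ^ (2 * s + 4) ≤ X ^ (2 * s + 10) := by
    rw [show X ^ (2 * s + 10) = X ^ (2 * s + 4) * X ^ 3 * X ^ 3 by ring]
    have k2 : 2 ≤ X ^ 3 := le_trans (by linarith) (le_self_pow₀ X1 (by omega))
    have k1 : 0 ≤ X ^ (2 * s + 4) := by positivity
    linarith [mul_le_mul_of_nonneg_left k2 (show 0 ≤ X ^ (2 * s + 4) * X ^ 3 by positivity),
      mul_le_mul_of_nonneg_left k2 k1]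
  have c4 : 0 ≤ X ^ 3 := by positivity
  have c5 := mul_le_mul_of_nonneg_right c1 c4
  refine ⟨c1.trans (pow_le_pow_right₀ X1 (by omega)), ?_, le_trans ?_
    (ng_Gam hT.ok0 c4 fun e he => ?_)⟩
  · refine (mul_le_mul (pow_le_pow_left₀ zero_le_two (b := Real.exp 1)
      (by linarith [Real.add_one_le_exp 1]) _) (P057SH.ms_gam hT (Real.one_le_exp c4) fun e he =>
        (P057TE.ms_blk hT hL.one e).trans (Real.exp_le_exp.2 (by
          linarith [c2 e he, (hC e).2.trans (l1 e he)]))) (ms_nonneg _ _) (by positivity)).trans ?_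
    rw [← Real.exp_nat_mul, ← Real.exp_nat_mul, ← Real.exp_add]
    refine Real.exp_le_exp.2 ?_
    linarith [mul_le_mul_of_nonneg_right (c0.trans (pow_le_pow_right₀ X1
      (show 2 * s + 3 ≤ 2 * s + 4 by omega))) c4]
  · exact Real.exp_le_exp.2 (by linarith [pow_nonneg (zero_le_one.trans X1) (2 * s + 4)])
  · have h1 := Real.one_le_exp_iff.1
      ((P057TE.one_le_ms (posDef_bk hT.pd _)).trans (P057TE.ms_blk hT hL.one e))
    rw [Tow.yy] at h1
    split_ifs at h1 <;> linarith [c2 e he]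

theorem exists_fix {ι α : Type} [Zero α] (lv : ι → ℕ) (F : (ι → α) → ι → α)
    (h : ∀ a y y', (∀ b, lv b < lv a → y b = y' b) → F y a = F y' a) : ∃ y, ∀ a, y a = F y a := by
  let G : ∀ a, (∀ b, lv b < lv a → α) → α := fun a ih =>
    F (fun b => if h : lv b < lv a then ih b h else 0) a
  exact ⟨(measure lv).wf.fix G, fun a => ((measure lv).wf.fix_eq G a).trans
    (h a _ _ fun b hb => dif_pos hb)⟩

theorem vars_low (hT : T.Ok0 s) {Z : Sys T W S} (h : Z.Ok) (o : Option S) (a j : T.ι)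
    (hj : j ∈ (Z.fam.fn o a).vars) : T.lv j < T.lv a := by
  classical
  obtain ⟨β, h1, h2⟩ := (mem_vars j).1 hj
  obtain ⟨μ, h3⟩ := ne_zero_iff.1 (mem_support_iff.1 h1)
  by_cases e : μ = 0
  · refine hT.low a j ((mem_vars j).2 ⟨β, mem_support_iff.2 ?_, h2⟩)
    rw [← h.top, ← h.fam.top_eq o, coeff_map]
    rw [e] at h3
    exact h3
  · have h4 := h.fam.hom _ _ _ _ h3
    have h6 : μ.degree ≠ 0 := fun m => e ((Finsupp.degree_eq_zero_iff μ).1 m)
    have h7 := Finsupp.le_weight_of_ne_zero' T.lv (Finsupp.mem_support_iff.1 h2)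
    omega

theorem altL_none {R : Type} [CommRing R] (u : Lb T cl S m → R) {D : Finset W} {b : T.ι}
    (h : D.card ≠ T.lv b) : altL D (lift u none b) = 0 := by
  unfold lift
  rw [altL_sum]
  refine sum_eq_zero fun l _ => ?_
  split_ifs with k
  · rw [altL_C_mul, altL_mon, if_neg fun e => h (by rw [← e, ← k.1, l.card_eq (k.2.elim id id)]),
      mul_zero]
  · exact altL_zero _

/-- virtual points of an arbitrary system -/
theorem vpz (hT : T.Ok0 s) {Z : Sys T W S} (hZ : Z.Ok) (x : Lb T cl S m → ℝ) (o : Option S) :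
    ∃ p : Finset W → T.ι → ℝ, (∀ B : Finset W, Set.InjOn cl B → ∀ b, T.lv b < m →
      p B b - eval (p B) (Z.fam.at' o B b) = pt (x - Z.pr cl m x) o B b) ∧
      ∀ (Φ : MvPolynomial T.ι (Lam ℝ W)) (d : ℕ) (A : Finset W), JH T.lv Φ d →
        (o = none → A.card = d) →
        altL A (eval (lift x o) Φ) = dlt (fun B => eval (p B) (map (evA B) Φ)) A := by
  cases o with
  | some t =>
    exact ⟨pt x (some t), fun B hB b hb => by rw [pt_sub', hZ.pt_pr x t hB hb],
      fun Φ d A _ _ => dlt_congr fun B _ => by rw [hom_eval]; simp only [evA_lift]⟩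
  | none =>
    obtain ⟨Y, hY⟩ := exists_fix T.lv (fun Y a => lift x none a +
      ∑ D ∈ univ.filter fun D : Finset W => D.card < T.lv a,
        MvPolynomial.C (altL D (eval Y (Z.fam.fn none a))) * mon D (T.lv a)) fun a y y' h => by
      rw [show eval y (Z.fam.fn none a) = eval y' (Z.fam.fn none a) from
        eval₂Hom_congr' rfl (fun b hb _ => h b (vars_low hT hZ _ _ _ hb)) rfl]
    have h1 : ∀ a, IsHomogeneous (Y a) (T.lv a) := fun a => by
      rw [hY]
      exact (lift_hom _ _ _).add (IsHomogeneous.sum _ _ _ fun D hD =>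
        (mon_hom (mem_filter.1 hD).2.le).C_mul _)
    have h2 : ∀ a D, altL D (Y a) = altL D (lift x none a) +
        if D.card < T.lv a then altL D (eval Y (Z.fam.fn none a)) else 0 := fun a D => by
      rw [hY, altL_add, altL_sum]
      simp only [altL_C_mul, altL_mon, mul_ite, mul_one, mul_zero, sum_ite_eq', mem_filter,
        mem_univ, true_and]
    have h3 : ∀ (Φ : MvPolynomial T.ι (Lam ℝ W)) (A : Finset W), JH T.lv Φ A.card →
        altL A (eval (lift x none) Φ) = altL A (eval Y Φ) := fun Φ A h =>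
      h.altL_congr (lift_hom x none) h1 fun b B _ k => by rw [h2, if_neg k.not_lt, add_zero]
    refine ⟨fun B a => evA B (Y a), fun B hB b hb => ?_, fun Φ d A h k =>
      (h3 Φ A (k rfl ▸ h)).trans (dlt_congr fun B _ => hom_eval _ _ _)⟩
    rw [Fam.at', ← hom_eval, ← map_sub, ← evA_lift, ← sum_altL, ← sum_altL]
    refine sum_congr rfl fun D hD => ?_
    rcases lt_trichotomy D.card (T.lv b) with k | k | k
    · rw [altL_sub, h2, if_pos k, altL_none _ k.ne, altL_none _ k.ne, zero_add, sub_self]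
    · let l : Lb T cl S m := ⟨(b, D, none), hb, hB.mono (mem_powerset.1 hD), k⟩
      rw [altL_sub, h2, if_neg k.not_lt, add_zero, ← h3 _ D (k ▸ hZ.fam.hom none b),
        ← Fam.alt_eq]
      exact (congrArg (· - _) (altL_lift x l)).trans (altL_lift (x - Z.pr cl m x) l).symm
    · rw [altL_of_lt ((h1 b).sub (JH.eval (hZ.fam.hom none b) h1)) k, altL_none _ k.ne']

theorem map_evA {κ : Type} (B : Finset W) (R : MvPolynomial κ ℝ) :
    map (evA B) (map MvPolynomial.C R : MvPolynomial κ (Lam ℝ W)) = R := by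
  rw [MvPolynomial.map_map, show (evA B).comp MvPolynomial.C = RingHom.id ℝ from
    RingHom.ext (evA_C B), MvPolynomial.map_id]

theorem ok_cen (hT : T.Ok0 s) (W S : Type) : (T.cen W S).Ok :=
  ⟨⟨fun _ a => JH.of_hom (hT.hom a), fun _ _ => rfl⟩, fun a => by
    rw [Fam.top, Tow.cen, MvPolynomial.map_map, constantCoeff_comp_C, MvPolynomial.map_id]⟩

theorem vp : VP := fun s T C W S _ _ _ cl m y o A hT hA => by
  obtain ⟨p, h1, h2⟩ := vpz hT (ok_cen hT W S) y o
  refine ⟨p, fun B hB b hb => ?_, fun R d hR _ k => ?_⟩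
  · rw [← h1 B (hA.mono hB) b hb, Fam.at', Tow.cen, map_evA]
    rfl
  · simpa only [map_evA] using h2 _ d A (JH.of_hom hR) k

end

end Vale.Agent.P057NA
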